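import Vale.Agent.P141.H419.TVpg
import Vale.Agent.P141.H336.TVr

/-!
# P141, line (A), (TI): hub `x1`, moving weight, the numbers indexed by the diagonal

The statements of `H419.TVpg` with one number for every diagonal `r = a - k` and the weights
`(3 / 4) ^ r` in the plane energy.

* `S34` : the weighted sum over the diagonals;
* `TV_stepL` : the energy `TV` from one step distances;
* `WFamL` : the families, numbers per diagonal;
* `WFamL.own_diag`, `WFamL.OM`, `WFamL.OO`, `WFamL.TV_pg`.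
-/

set_option linter.unusedSectionVars false

namespace Vale.Agent.P141.H839.TVpgL

open Finset Matrix Vale.Agent.P075 Vale.Agent.P141.PL Vale.Agent.P141.PL.H103 Vale.Agent.P141.H103
open Vale.Agent.P141.H389 Vale.Agent.P141.H505 Vale.Agent.P141.H336
open Vale.Agent.P141.H585.PairCh Vale.Agent.P141.H585.PairO
open Vale.Agent.P141.H419.PairW Vale.Agent.P141.H419.PairB Vale.Agent.P141.H419.TVpg

noncomputable section

/-- weighted sum over the diagonals -/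
def S34 (N : ℕ) (f : ℕ → ℝ) : ℝ := ∑ r ∈ range (N + 1), (3 / 4 : ℝ) ^ r * f r

theorem S34_mono {N : ℕ} {f g : ℕ → ℝ} (h : ∀ r, f r ≤ g r) : S34 N f ≤ S34 N g :=
  sum_le_sum fun r _ => mul_le_mul_of_nonneg_left (h r) (by positivity)

theorem S34_nonneg {N : ℕ} {f : ℕ → ℝ} (h : ∀ r, 0 ≤ f r) : 0 ≤ S34 N f :=
  sum_nonneg fun r _ => mul_nonneg (by positivity) (h r)

theorem S34_smul (N : ℕ) (c : ℝ) (f : ℕ → ℝ) : S34 N (fun r => c * f r) = c * S34 N f := by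
  unfold S34
  rw [mul_sum]
  exact sum_congr rfl fun r _ => by ring

theorem S34_add (N : ℕ) (f g : ℕ → ℝ) : S34 N (fun r => f r + g r) = S34 N f + S34 N g := by
  unfold S34
  rw [← sum_add_distrib]
  exact sum_congr rfl fun r _ => by ring

theorem S34_zero_le {N : ℕ} {f : ℕ → ℝ} (h : ∀ r, 0 ≤ f r) : f 0 ≤ S34 N f := by
  have := single_le_sum (s := range (N + 1)) (f := fun r => (3 / 4 : ℝ) ^ r * f r)
    (fun r _ => mul_nonneg (by positivity) (h r)) (mem_range.2 (by omega : 0 < N + 1))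
  simpa [S34] using this

/-- a bound by one number -/
theorem S34_const {N : ℕ} {f : ℕ → ℝ} {B : ℝ} (h : ∀ r, f r ≤ B) (hB : 0 ≤ B) :
    S34 N f ≤ 4 * B := by
  refine (S34_mono h).trans ?_
  unfold S34
  rw [← sum_mul]
  exact mul_le_mul_of_nonneg_right (geo _) hB

/-- the sum over a family of `S34` -/
theorem S34_sum {X : Type*} (I : Finset X) (N : ℕ) (f : X → ℕ → ℝ) :
    ∑ i ∈ I, S34 N (f i) = S34 N fun r => ∑ i ∈ I, f i r := by
  unfold S34
  rw [sum_comm]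
  exact sum_congr rfl fun r _ => (mul_sum ..).symm

/-! ### The energy `TV` from one step distances -/

section step

variable {ι : ℕ → Type*} [∀ k, Fintype (ι k)] [∀ k, DecidableEq (ι k)]

theorem TV_stepL {k₀ N : ℕ} (hkN : k₀ ≤ N) {R S : ℤ}
    {V : ∀ k, ℕ → ℤ → ℤ → Matrix (ι k) (ι k) ℝ}
    {q : ℕ → ℕ → ℤ → ℤ → ℝ} {H Q : ℕ → ℝ} (H0 : ∀ r, 0 ≤ H r) (Q0 : ∀ r, 0 ≤ Q r)
    (st : ∀ k a n m, k₀ ≤ k → k ≤ a → a < N →
      H389.sq (V k a (2 * n) m - V k (a + 1) n m) + H389.sq (V k a (2 * n + 1) m - V k (a + 1) n m)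
        ≤ q k a n m)
    (hH : EW N R S k₀ (V k₀) k₀ ≤ H 0)
    (hHT : ∀ r, k₀ + r ≤ N → EW N R S (N - r) (V (N - r)) N ≤ H r)
    (hQ : ∀ r, ∑ k ∈ Ico k₀ (N - r), bsum N R S k (k + r + 1) (fun n m => q k (k + r) n m) ≤ Q r) :
    TV k₀ N R S V ≤ 20 * S34 N H + 9 * S34 N Q := by
  have hlev : ∀ k r, k₀ ≤ k → k + r < N →
      (2 : ℝ) ^ k * ∑ m ∈ iv (N - k) S, lvV N R (fun a n => V k a n m) (k + r)
      ≤ (1 / 2) * bsum N R S k (k + r + 1) (fun n m => q k (k + r) n m) := by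
    intro k r h1 h2
    have e1 : (2 : ℝ) ^ k * ∑ m ∈ iv (N - k) S, lvV N R (fun a n => V k a n m) (k + r)
        = (1 / 2) * bsum N R S k (k + r + 1) fun n m =>
          (H389.sq (V k (k + r) (2 * n) m - V k (k + r + 1) n m)
            + H389.sq (V k (k + r) (2 * n + 1) m - V k (k + r + 1) n m)) := by
      unfold lvV bsum
      rw [← mul_sum, pow_succ]
      ring
    rw [e1]
    refine mul_le_mul_of_nonneg_left (bsum_mono fun n m => ?_) (by norm_num)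
    exact st k (k + r) n m h1 (by omega) h2
  have hdiag : ∀ r, ∑ k ∈ Ico k₀ (N - r),
      ((2 : ℝ) ^ k * ∑ m ∈ iv (N - k) S, lvV N R (fun a n => V k a n m) (k + r))
      ≤ (1 / 2) * Q r := by
    intro r
    calc ∑ k ∈ Ico k₀ (N - r), ((2 : ℝ) ^ k * ∑ m ∈ iv (N - k) S,
          lvV N R (fun a n => V k a n m) (k + r))
        ≤ ∑ k ∈ Ico k₀ (N - r), (1 / 2) * bsum N R S k (k + r + 1) (fun n m => q k (k + r) n m) :=
          sum_le_sum fun k hk => by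
            have := mem_Ico.1 hk
            exact hlev k r this.1 (by omega)
      _ ≤ (1 / 2) * Q r := by
          rw [← mul_sum]
          exact mul_le_mul_of_nonneg_left (hQ r) (by norm_num)
  have hall := diag_sumR (k₀ := k₀) (N := N)
    (f := fun k r => (2 : ℝ) ^ k * ∑ m ∈ iv (N - k) S,
      lvV N R (fun a n => V k a n m) (k + r)) hdiag (fun r => by have := Q0 r; positivity)
  have hall' : ∑ k ∈ Ico k₀ N, ∑ r ∈ range (N - k), (3 / 4 : ℝ) ^ r * ((2 : ℝ) ^ k *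
      ∑ m ∈ iv (N - k) S, lvV N R (fun a n => V k a n m) (k + r)) ≤ (1 / 2) * S34 N Q := by
    refine hall.trans (le_of_eq ?_)
    rw [← S34_smul]
    rfl
  have htop : ∑ k ∈ Ico k₀ N, (3 / 4 : ℝ) ^ (N - k) * EW N R S k (V k) N ≤ S34 N H := by
    calc ∑ k ∈ Ico k₀ N, (3 / 4 : ℝ) ^ (N - k) * EW N R S k (V k) N
        ≤ ∑ k ∈ Ico k₀ N, (3 / 4 : ℝ) ^ (N - k) * H (N - k) :=
          sum_le_sum fun k hk => by
            have h1 := (mem_Ico.1 hk).1
            have h2 := (mem_Ico.1 hk).2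
            have h3 := hHT (N - k) (by omega)
            have h4 : N - (N - k) = k := by omega
            rw [h4] at h3
            exact mul_le_mul_of_nonneg_left h3 (by positivity)
      _ = ∑ r ∈ (Ico k₀ N).image (fun k => N - k), (3 / 4 : ℝ) ^ r * H r := by
          rw [sum_image]
          intro a ha b hb hab
          have h1 := (mem_Ico.1 ha).2
          have h2 := (mem_Ico.1 hb).2
          simp only at hab
          omega
      _ ≤ S34 N H := by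
          refine sum_le_sum_of_subset_of_nonneg (fun r hr => ?_) fun r _ _ =>
            mul_nonneg (by positivity) (H0 r)
          obtain ⟨k, _, rfl⟩ := mem_image.1 hr
          exact mem_range.2 (by omega)
  have hSVM : ∀ k, SVM N k R S (V k)
      = ∑ r ∈ range (N - k), (3 / 4 : ℝ) ^ r * ((2 : ℝ) ^ k * ∑ m ∈ iv (N - k) S,
          lvV N R (fun a n => V k a n m) (k + r))
        + (3 / 4 : ℝ) ^ (N - k) * EW N R S k (V k) N := by
    intro k
    unfold SVM SV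
    rw [EW_eq, sum_add_distrib, mul_add, sum_comm]
    congr 1
    · rw [mul_sum]
      refine sum_congr rfl fun r _ => ?_
      rw [← mul_sum]
      ring
    · rw [← mul_sum]
      ring
  have hsum : ∑ k ∈ Ico k₀ N, SVM N k R S (V k) ≤ (1 / 2) * S34 N Q + S34 N H := by
    simp only [hSVM, sum_add_distrib]
    linarith
  have h2 := hHT 0 (by omega)
  rw [Nat.sub_zero] at h2
  have h3 := S34_zero_le (N := N) H0
  unfold TV
  linarith

end step

/-! ### The families -/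

/-- the families of the second slot at the hub -/
structure WFamL (k₀ N : ℕ) (R S : ℤ) {ι : ℕ → Type*} [∀ k, Fintype (ι k)]
    [∀ k, DecidableEq (ι k)] (μ : ℝ) (J : ℕ) (τ β : ℝ)
    (Sr Θ G E M : ∀ k, ℕ → ℤ → ℤ → Matrix (ι k) (ι k) ℝ)
    (rr : ∀ k, Matrix (ι (k + 1)) (ι (k + 1)) ℝ) (p : ℕ → ℕ → ℤ → ℤ → ℝ)
    (H ZM ZE ZQ Qm : ℕ → ℝ) : Prop where
  hkN : k₀ ≤ N
  hμ : 0 < μ
  hτ : 0 ≤ τ
  hβ : 0 < β
  pS : ∀ k a n m, (Sr k a n m).PosSemidef
  uS : ∀ k a n m, IsUnit (Sr k a n m).det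
  bS : ∀ k a n m, (Sr k a n m * Sr k a n m - β • 1).PosSemidef
  sΘ : ∀ k a n m, (Θ k a n m)ᵀ = Θ k a n m
  tΘ : ∀ k a n m, (τ • (Sr k a n m * Sr k a n m) - Θ k a n m * Θ k a n m).PosSemidef
  pG : ∀ k a n m, (G k a n m).PosSemidef
  sM : ∀ k a n m, (M k a n m)ᵀ = M k a n m
  pE : ∀ k a n m, (E k a n m).PosSemidef
  par : ∀ k a n m, k₀ ≤ k → k ≤ a → a < N →
    G k (a + 1) n m = (1 / 2 : ℝ) • (G k a (2 * n) m + G k a (2 * n + 1) m)
  S0 : ∀ k a n m, k₀ ≤ k → k ≤ a → a < N → Sr k a (2 * n) m * Sr k a (2 * n) m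
    = Sr k (a + 1) n m * Sr k (a + 1) n m - E k a n m + M k a n m
  S1 : ∀ k a n m, k₀ ≤ k → k ≤ a → a < N → Sr k a (2 * n + 1) m * Sr k a (2 * n + 1) m
    = Sr k (a + 1) n m * Sr k (a + 1) n m - E k a n m - M k a n m
  Θ0 : ∀ k a n m, k₀ ≤ k → k ≤ a → a < N →
    Θ k a (2 * n) m = Θ k (a + 1) n m - E k a n m + M k a n m
  Θ1 : ∀ k a n m, k₀ ≤ k → k ≤ a → a < N →
    Θ k a (2 * n + 1) m = Θ k (a + 1) n m - E k a n m - M k a n m
  hr : ∀ k, (rr k)ᵀ = rr k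
  hr2 : ∀ k, rr k * rr k = 1
  rS : ∀ k a n m, rr k * Sr (k + 1) a n m = Sr (k + 1) a n m * rr k
  rΘ : ∀ k a n m, rr k * Θ (k + 1) a n m = Θ (k + 1) a n m * rr k
  cap0 : ∀ k a n m, k₀ ≤ k → k ≤ a → a < N →
    (1 - (μ / 4 ^ J) • (Sr k (a + 1) n m * G k a (2 * n) m * Sr k (a + 1) n m)).PosSemidef
  cap1 : ∀ k a n m, k₀ ≤ k → k ≤ a → a < N →
    (1 - (μ / 4 ^ J) • (Sr k (a + 1) n m * G k a (2 * n + 1) m * Sr k (a + 1) n m)).PosSemidef
  mid : ∀ k a n m, k₀ ≤ k → k + 1 ≤ a → a ≤ N →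
    (1 / 2) * SG μ J (Sr (k + 1) a n m * G (k + 1) a n m * Sr (k + 1) a n m
        + rr k * (Sr (k + 1) a n m * G (k + 1) a n m * Sr (k + 1) a n m) * rr k)
      ≤ (1 / 2) * (SG μ J (Sr k a n (2 * m) * G k a n (2 * m) * Sr k a n (2 * m))
        + SG μ J (Sr k a n (2 * m + 1) * G k a n (2 * m + 1) * Sr k a n (2 * m + 1))) + p k a n m
  H0 : ∀ r, 0 ≤ H r
  ZM0 : ∀ r, 0 ≤ ZM r
  ZE0 : ∀ r, 0 ≤ ZE r
  ZQ0 : ∀ r, 0 ≤ ZQ r
  Qm0 : ∀ r, 0 ≤ Qm r
  hH : ∀ r, k₀ + r ≤ N → bsum N R S k₀ (k₀ + r)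
    (fun n m => (Sr k₀ (k₀ + r) n m * Sr k₀ (k₀ + r) n m * G k₀ (k₀ + r) n m).trace) ≤ H r
  hHT : ∀ r, k₀ + r ≤ N → bsum N R S (N - r) N
    (fun n m => (Sr (N - r) N n m * Sr (N - r) N n m * G (N - r) N n m).trace) ≤ H r
  hZM : ∀ r, ∑ k ∈ Ico k₀ (N - r), bsum N R S k (k + r + 1) (fun n m =>
    eM (Sr k (k + r + 1) n m) (M k (k + r) n m) (G k (k + r) (2 * n) m)
      (G k (k + r) (2 * n + 1) m)) ≤ ZM r
  hZE : ∀ r, ∑ k ∈ Ico k₀ (N - r), bsum N R S k (k + r + 1) (fun n m =>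
    eE (E k (k + r) n m) (G k (k + r) (2 * n) m) (G k (k + r) (2 * n + 1) m)) ≤ ZE r
  hZQ : ∀ r, ∑ k ∈ Ico k₀ (N - r), bsum N R S k (k + r + 1) (fun n m =>
    eQ (E k (k + r) n m) (M k (k + r) n m) (G k (k + r) (2 * n) m)
      (G k (k + r) (2 * n + 1) m)) ≤ ZQ r
  hQm : ∀ r, ∑ k ∈ Ico k₀ (N - r), bsum N R S (k + 1) (k + 1 + r)
    (fun n m => p k (k + 1 + r) n m) ≤ Qm r

section fam

variable {k₀ N : ℕ} {R S : ℤ} {ι : ℕ → Type*} [∀ k, Fintype (ι k)] [∀ k, DecidableEq (ι k)]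
  {μ : ℝ} {J : ℕ} {τ β : ℝ} {Sr Θ G E M : ∀ k, ℕ → ℤ → ℤ → Matrix (ι k) (ι k) ℝ}
  {rr : ∀ k, Matrix (ι (k + 1)) (ι (k + 1)) ℝ} {p : ℕ → ℕ → ℤ → ℤ → ℝ} {H ZM ZE ZQ Qm : ℕ → ℝ}

/-- the own number of the diagonal `r` -/
def OwL (J : ℕ) (H ZM ZE Qm : ℕ → ℝ) (r : ℕ) : ℝ := Ow J (H r) (ZM r) (ZE r) (Qm r)

theorem WFamL.pX (h : WFamL k₀ N R S μ J τ β Sr Θ G E M rr p H ZM ZE ZQ Qm) (k a : ℕ) (n m : ℤ) :
    (Sr k a n m * G k a n m * Sr k a n m).PosSemidef :=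
  psd_conj_symm (h.pG k a n m) (psd_isSymm (h.pS k a n m))

theorem WFamL.Ow_ge (h : WFamL k₀ N R S μ J τ β Sr Θ G E M rr p H ZM ZE ZQ Qm) (r : ℕ) :
    H r ≤ OwL J H ZM ZE Qm r := by
  have h1 := h.H0 r
  have h2 := h.ZM0 r
  have h3 := h.ZE0 r
  have h4 := h.Qm0 r
  have hJ : (0 : ℝ) ≤ J := Nat.cast_nonneg J
  unfold OwL Ow
  have a1 : 0 ≤ (J : ℝ) * H r := by positivity
  have a2 : 0 ≤ 32 * ((J : ℝ) + 1) ^ 3 * ZM r := by positivity
  have a3 : 0 ≤ (1 / 2) * ((J : ℝ) + 1) * ZE r := by positivity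
  linarith

theorem WFamL.Ow0 (h : WFamL k₀ N R S μ J τ β Sr Θ G E M rr p H ZM ZE ZQ Qm) (r : ℕ) :
    0 ≤ OwL J H ZM ZE Qm r := (h.H0 r).trans (h.Ow_ge r)

/-- **Own defects of the outer and of the middle steps, every diagonal.** -/
theorem WFamL.own_diag (h : WFamL k₀ N R S μ J τ β Sr Θ G E M rr p H ZM ZE ZQ Qm) (r : ℕ) :
    ∑ k ∈ Ico k₀ (N - r), (1 / 4) * bsum N R S k (k + r + 1) (fun n m =>
        SD μ J (Sr k (k + r + 1) n m * G k (k + r) (2 * n) m * Sr k (k + r + 1) n m)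
          (Sr k (k + r + 1) n m * G k (k + r) (2 * n + 1) m * Sr k (k + r + 1) n m))
      + ∑ k ∈ Ico k₀ (N - r), bsum N R S (k + 1) (k + 1 + r) (fun n m => (1 / 2) * SC μ J (rr k)
        (Sr (k + 1) (k + 1 + r) n m * G (k + 1) (k + 1 + r) n m * Sr (k + 1) (k + 1 + r) n m))
      ≤ OwL J H ZM ZE Qm r := by
  have hH0 := h.H0 r
  have hM0 := h.ZM0 r
  have hE0 := h.ZE0 r
  have hQ0 := h.Qm0 r
  have hμ := h.hμ
  have hJ : (0 : ℝ) ≤ J := Nat.cast_nonneg J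
  by_cases hr : k₀ + r ≤ N
  · have key := diag (k₀ := k₀) (N := N)
      (E := fun k a => bsum N R S k a fun n m => SG μ J (Sr k a n m * G k a n m * Sr k a n m))
      (G := fun k a => (1 / 4) * bsum N R S k (a + 1) fun n m =>
        SD μ J (Sr k (a + 1) n m * G k a (2 * n) m * Sr k (a + 1) n m)
          (Sr k (a + 1) n m * G k a (2 * n + 1) m * Sr k (a + 1) n m))
      (G' := fun k a => bsum N R S (k + 1) a fun n m => (1 / 2) * SC μ J (rr k)
        (Sr (k + 1) a n m * G (k + 1) a n m * Sr (k + 1) a n m))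
      (q := fun k a => bsum N R S k (a + 1) fun n m =>
        32 * ((J : ℝ) + 1) ^ 3 * eM (Sr k (a + 1) n m) (M k a n m) (G k a (2 * n) m)
          (G k a (2 * n + 1) m)
        + (1 / 2) * ((J : ℝ) + 1) * eE (E k a n m) (G k a (2 * n) m) (G k a (2 * n + 1) m))
      (p := fun k a => bsum N R S (k + 1) a fun n m => p k a n m)
      (fun k a h1 h2 h3 => by
        rw [← bsum_outer h3 R S (fun n m => SG μ J (Sr k a n m * G k a n m * Sr k a n m)),
          ← bsum_smul, ← bsum_add, ← bsum_add]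
        refine bsum_mono fun n m => ?_
        have e := own_outer (h.pS k (a + 1) n m) (h.uS k (a + 1) n m) (h.pS k a (2 * n) m)
          (h.pS k a (2 * n + 1) m) (h.sM k a n m) (h.pE k a n m) (h.S0 k a n m h1 h2 h3)
          (h.S1 k a n m h1 h2 h3) (h.pG k a (2 * n) m) (h.pG k a (2 * n + 1) m) hμ J
          (h.cap0 k a n m h1 h2 h3) (h.cap1 k a n m h1 h2 h3)
        rw [← h.par k a n m h1 h2 h3] at e
        unfold eM eE
        linarith)
      (fun k a h1 h2 h3 => by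
        rw [← bsum_mid (by omega : k < N) R S
          (fun n m => SG μ J (Sr k a n m * G k a n m * Sr k a n m)), ← bsum_add, ← bsum_add]
        refine bsum_mono fun n m => ?_
        have e1 := own_mid (h.pX (k + 1) a n m) (h.hr k) (h.hr2 k) hμ J
        have e2 := h.mid k a n m h1 h2 h3
        linarith)
      r (N - r) (by omega) (by omega)
    have e1 : 0 ≤ bsum N R S (N - r) (N - r + r) fun n m =>
        SG μ J (Sr (N - r) (N - r + r) n m * G (N - r) (N - r + r) n m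
          * Sr (N - r) (N - r + r) n m) :=
      bsum_nonneg fun n m => SG_nonneg (h.pX _ _ _ _) hμ J
    have e2 : (bsum N R S k₀ (k₀ + r) fun n m =>
        SG μ J (Sr k₀ (k₀ + r) n m * G k₀ (k₀ + r) n m * Sr k₀ (k₀ + r) n m))
        ≤ ((J : ℝ) + 1) * H r := by
      have h1 := h.hH r hr
      have h2 : (bsum N R S k₀ (k₀ + r) fun n m =>
          SG μ J (Sr k₀ (k₀ + r) n m * G k₀ (k₀ + r) n m * Sr k₀ (k₀ + r) n m))
          ≤ bsum N R S k₀ (k₀ + r) fun n m => ((J : ℝ) + 1)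
            * (Sr k₀ (k₀ + r) n m * Sr k₀ (k₀ + r) n m * G k₀ (k₀ + r) n m).trace := by
        refine bsum_mono fun n m => ?_
        have e := SG_le (h.pX k₀ (k₀ + r) n m) hμ J
        have e' : (Sr k₀ (k₀ + r) n m * G k₀ (k₀ + r) n m * Sr k₀ (k₀ + r) n m).trace
            = (Sr k₀ (k₀ + r) n m * Sr k₀ (k₀ + r) n m * G k₀ (k₀ + r) n m).trace := by
          rw [Matrix.mul_assoc, trace_mul_comm, Matrix.mul_assoc, trace_mul_comm]
        rwa [e'] at e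
      rw [bsum_smul] at h2
      exact h2.trans (mul_le_mul_of_nonneg_left h1 (by positivity))
    have e3 := h.hQm r
    have e4 : ∑ k ∈ Ico k₀ (N - r), bsum N R S k (k + r + 1) (fun n m =>
        32 * ((J : ℝ) + 1) ^ 3 * eM (Sr k (k + r + 1) n m) (M k (k + r) n m)
          (G k (k + r) (2 * n) m) (G k (k + r) (2 * n + 1) m)
        + (1 / 2) * ((J : ℝ) + 1) * eE (E k (k + r) n m) (G k (k + r) (2 * n) m)
          (G k (k + r) (2 * n + 1) m))
        ≤ 32 * ((J : ℝ) + 1) ^ 3 * ZM r + (1 / 2) * ((J : ℝ) + 1) * ZE r := by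
      simp only [bsum_add, bsum_smul, sum_add_distrib, ← mul_sum]
      exact add_le_add (mul_le_mul_of_nonneg_left (h.hZM r) (by positivity))
        (mul_le_mul_of_nonneg_left (h.hZE r) (by positivity))
    unfold OwL Ow
    linarith
  · rw [Ico_eq_empty (by omega), sum_empty, sum_empty, add_zero]
    exact hH0.trans (h.Ow_ge r)

theorem WFamL.SD_diag (h : WFamL k₀ N R S μ J τ β Sr Θ G E M rr p H ZM ZE ZQ Qm) (r : ℕ) :
    ∑ k ∈ Ico k₀ (N - r), bsum N R S k (k + r + 1) (fun n m =>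
        SD μ J (Sr k (k + r + 1) n m * G k (k + r) (2 * n) m * Sr k (k + r + 1) n m)
          (Sr k (k + r + 1) n m * G k (k + r) (2 * n + 1) m * Sr k (k + r + 1) n m))
      ≤ 4 * OwL J H ZM ZE Qm r := by
  have h1 := h.own_diag r
  have h2 : 0 ≤ ∑ k ∈ Ico k₀ (N - r), bsum N R S (k + 1) (k + 1 + r) (fun n m =>
      (1 / 2) * SC μ J (rr k)
        (Sr (k + 1) (k + 1 + r) n m * G (k + 1) (k + 1 + r) n m * Sr (k + 1) (k + 1 + r) n m)) :=
    sum_nonneg fun k _ => bsum_nonneg fun n m => mul_nonneg (by norm_num)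
      (SC_nonneg (h.pX _ _ _ _) (h.hr k) h.hμ J)
  rw [← mul_sum] at h1
  linarith

theorem WFamL.SC_diag (h : WFamL k₀ N R S μ J τ β Sr Θ G E M rr p H ZM ZE ZQ Qm) (r : ℕ) :
    ∑ k ∈ Ico k₀ (N - r), bsum N R S (k + 1) (k + 1 + r) (fun n m => SC μ J (rr k)
        (Sr (k + 1) (k + 1 + r) n m * G (k + 1) (k + 1 + r) n m * Sr (k + 1) (k + 1 + r) n m))
      ≤ 2 * OwL J H ZM ZE Qm r := by
  have h1 := h.own_diag r
  have pc : ∀ k a n m, ((Sr k (a + 1) n m * G k a n m * Sr k (a + 1) n m)).PosSemidef :=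
    fun k a n m => psd_conj_symm (h.pG k a n m) (psd_isSymm (h.pS k (a + 1) n m))
  have h2 : 0 ≤ ∑ k ∈ Ico k₀ (N - r), (1 / 4) * bsum N R S k (k + r + 1) (fun n m =>
        SD μ J (Sr k (k + r + 1) n m * G k (k + r) (2 * n) m * Sr k (k + r + 1) n m)
          (Sr k (k + r + 1) n m * G k (k + r) (2 * n + 1) m * Sr k (k + r + 1) n m)) :=
    sum_nonneg fun k _ => mul_nonneg (by norm_num) (bsum_nonneg fun n m =>
      SD_nonneg (psd_conj_symm (h.pG _ _ _ _) (psd_isSymm (h.pS _ _ _ _)))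
        (psd_conj_symm (h.pG _ _ _ _) (psd_isSymm (h.pS _ _ _ _))) h.hμ J)
  simp only [bsum_smul, ← mul_sum] at h1 h2
  linarith

/-- the own number of the middle steps -/
theorem WFamL.OM (h : WFamL k₀ N R S μ J τ β Sr Θ G E M rr p H ZM ZE ZQ Qm) {j : ℕ} (hj : j ≤ J)
    {s : ℝ} (hs : s = (μ / 4 ^ j)⁻¹) :
    ∑ k ∈ Ico k₀ N, (4 : ℝ) ^ (k + 1) * ∑ m ∈ iv (N - (k + 1)) S, ∑ n ∈ iv (N - (k + 1)) R,
      gp s (rr k) (Sr (k + 1) (k + 1) n m * G (k + 1) (k + 1) n m * Sr (k + 1) (k + 1) n m)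
      ≤ 2 * s * OwL J H ZM ZE Qm 0 := by
  have h4 : 0 < μ / 4 ^ j := div_pos h.hμ (by positivity)
  have hs0 : 0 < s := by rw [hs]; exact inv_pos.2 h4
  have h1 := h.SC_diag 0
  rw [Nat.sub_zero] at h1
  have e : ∀ k, (4 : ℝ) ^ (k + 1) * ∑ m ∈ iv (N - (k + 1)) S, ∑ n ∈ iv (N - (k + 1)) R,
      gp s (rr k) (Sr (k + 1) (k + 1) n m * G (k + 1) (k + 1) n m * Sr (k + 1) (k + 1) n m)
      = bsum N R S (k + 1) (k + 1) fun n m =>
        gp s (rr k) (Sr (k + 1) (k + 1) n m * G (k + 1) (k + 1) n m * Sr (k + 1) (k + 1) n m) := by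
    intro k
    unfold bsum
    rw [← mul_pow]
    norm_num
  simp only [e]
  have h2 : ∑ k ∈ Ico k₀ N, (bsum N R S (k + 1) (k + 1) fun n m =>
        gp s (rr k) (Sr (k + 1) (k + 1) n m * G (k + 1) (k + 1) n m * Sr (k + 1) (k + 1) n m))
      ≤ ∑ k ∈ Ico k₀ N, bsum N R S (k + 1) (k + 1 + 0) fun n m => s * SC μ J (rr k)
        (Sr (k + 1) (k + 1 + 0) n m * G (k + 1) (k + 1 + 0) n m * Sr (k + 1) (k + 1 + 0) n m) :=
    sum_le_sum fun k _ => bsum_mono fun n m => gp_le (h.pX _ _ _ _) (h.hr k) h.hμ hj hs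
  simp only [bsum_smul, ← mul_sum] at h2
  have h3 := mul_le_mul_of_nonneg_left h1 hs0.le
  linarith

/-- the own number of the outer steps -/
theorem WFamL.OO (h : WFamL k₀ N R S μ J τ β Sr Θ G E M rr p H ZM ZE ZQ Qm) {j : ℕ} (hj : j ≤ J)
    {s : ℝ} (hs : s = (μ / 4 ^ j)⁻¹) :
    ∑ k ∈ Ico k₀ N, (4 : ℝ) ^ (k + 1) * ∑ m ∈ iv (N - (k + 1)) S, ∑ n ∈ iv (N - (k + 1)) R,
      mh (fun i => dls s (Sr k (k + 1) n i * G k k (2 * n) i * Sr k (k + 1) n i)
        (Sr k (k + 1) n i * G k k (2 * n + 1) i * Sr k (k + 1) n i)) m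
      ≤ 4 * s * OwL J H ZM ZE Qm 0 := by
  have h4 : 0 < μ / 4 ^ j := div_pos h.hμ (by positivity)
  have hs0 : 0 < s := by rw [hs]; exact inv_pos.2 h4
  have h1 := h.SD_diag 0
  rw [Nat.sub_zero] at h1
  have e : ∀ k ∈ Ico k₀ N, (4 : ℝ) ^ (k + 1) * ∑ m ∈ iv (N - (k + 1)) S,
      ∑ n ∈ iv (N - (k + 1)) R,
      mh (fun i => dls s (Sr k (k + 1) n i * G k k (2 * n) i * Sr k (k + 1) n i)
        (Sr k (k + 1) n i * G k k (2 * n + 1) i * Sr k (k + 1) n i)) m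
      = bsum N R S k (k + 1) fun n m =>
        dls s (Sr k (k + 1) n m * G k k (2 * n) m * Sr k (k + 1) n m)
        (Sr k (k + 1) n m * G k k (2 * n + 1) m * Sr k (k + 1) n m) := by
    intro k hk
    rw [← bsum_mid (mem_Ico.1 hk).2 R S (fun n m =>
        dls s (Sr k (k + 1) n m * G k k (2 * n) m * Sr k (k + 1) n m)
        (Sr k (k + 1) n m * G k k (2 * n + 1) m * Sr k (k + 1) n m))]
    unfold bsum mh
    rw [← mul_pow]
    norm_num
  rw [sum_congr rfl e]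
  have h2 : ∑ k ∈ Ico k₀ N, (bsum N R S k (k + 1) fun n m =>
        dls s (Sr k (k + 1) n m * G k k (2 * n) m * Sr k (k + 1) n m)
        (Sr k (k + 1) n m * G k k (2 * n + 1) m * Sr k (k + 1) n m))
      ≤ ∑ k ∈ Ico k₀ N, bsum N R S k (k + 0 + 1) fun n m => s *
        SD μ J (Sr k (k + 0 + 1) n m * G k (k + 0) (2 * n) m * Sr k (k + 0 + 1) n m)
          (Sr k (k + 0 + 1) n m * G k (k + 0) (2 * n + 1) m * Sr k (k + 0 + 1) n m) :=
    sum_le_sum fun k _ => bsum_mono fun n m => dls_le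
      (psd_conj_symm (h.pG _ _ _ _) (psd_isSymm (h.pS _ _ _ _)))
      (psd_conj_symm (h.pG _ _ _ _) (psd_isSymm (h.pS _ _ _ _))) h.hμ hj hs
  simp only [bsum_smul, ← mul_sum] at h2
  have h3 := mul_le_mul_of_nonneg_left h1 hs0.le
  linarith

/-- the second slot -/
def Vf (s : ℝ) (Sr Θ G : ∀ k, ℕ → ℤ → ℤ → Matrix (ι k) (ι k) ℝ) :
    ∀ k, ℕ → ℤ → ℤ → Matrix (ι k) (ι k) ℝ :=
  fun k a n m => pg s (Θ k a n m) (Sr k a n m * Sr k a n m) (G k a n m)

theorem WFamL.sV (h : WFamL k₀ N R S μ J τ β Sr Θ G E M rr p H ZM ZE ZQ Qm) {s : ℝ} (hs : 0 < s)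
    (k a : ℕ) (n m : ℤ) : (Vf s Sr Θ G k a n m).PosSemidef :=
  pg_psd hs (h.sΘ k a n m) (psd_sq (psd_isSymm (h.pS k a n m))) (h.pG k a n m)

/-- **The plane energy of the second slot.** -/
theorem WFamL.TV_pg (h : WFamL k₀ N R S μ J τ β Sr Θ G E M rr p H ZM ZE ZQ Qm) {j : ℕ}
    (hj : j ≤ J) {s : ℝ} (hs : s = (μ / 4 ^ j)⁻¹) :
    TV k₀ N R S (Vf s Sr Θ G) ≤ 308 * τ ^ 2 * s * S34 N (OwL J H ZM ZE Qm)
      + 108 * (τ * s) * (2 + τ * β⁻¹) * S34 N ZQ := by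
  have h4 : 0 < μ / 4 ^ j := div_pos h.hμ (by positivity)
  have hs0 : 0 < s := by rw [hs]; exact inv_pos.2 h4
  have hτ := h.hτ
  have hβ := h.hβ
  have hc : 0 ≤ 12 * (τ * s) * (2 + τ * β⁻¹) := by positivity
  have hEW : ∀ k a (B : ℝ), bsum N R S k a
      (fun n m => (Sr k a n m * Sr k a n m * G k a n m).trace) ≤ B →
      EW N R S k (Vf s Sr Θ G k) a ≤ τ ^ 2 * s * B := by
    intro k a B hB
    have e1 : EW N R S k (Vf s Sr Θ G k) a
        = bsum N R S k a fun n m => H389.sq (Vf s Sr Θ G k a n m) := rfl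
    rw [e1]
    have e2 : (bsum N R S k a fun n m => H389.sq (Vf s Sr Θ G k a n m))
        ≤ bsum N R S k a fun n m => τ ^ 2 * s * (Sr k a n m * Sr k a n m * G k a n m).trace :=
      bsum_mono fun n m => sq_pg_le hs0 hτ (h.sΘ k a n m) (psd_isSymm (h.pS k a n m))
        (h.uS k a n m) (h.tΘ k a n m) (h.pG k a n m)
    rw [bsum_smul] at e2
    exact e2.trans (mul_le_mul_of_nonneg_left hB (by positivity))
  have key := TV_stepL h.hkN (V := Vf s Sr Θ G) (R := R) (S := S)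
    (q := fun k a n m => 8 * τ ^ 2 * dls s
        (Sr k (a + 1) n m * G k a (2 * n) m * Sr k (a + 1) n m)
        (Sr k (a + 1) n m * G k a (2 * n + 1) m * Sr k (a + 1) n m)
      + 12 * (τ * s) * (2 + τ * β⁻¹)
        * eQ (E k a n m) (M k a n m) (G k a (2 * n) m) (G k a (2 * n + 1) m))
    (H := fun r => τ ^ 2 * s * H r)
    (Q := fun r => 8 * τ ^ 2 * (s * (4 * OwL J H ZM ZE Qm r))
      + 12 * (τ * s) * (2 + τ * β⁻¹) * ZQ r)
    (fun r => by have := h.H0 r; positivity)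
    (fun r => by
      have h1 := h.Ow0 r
      have h2 := h.ZQ0 r
      positivity)
    (fun k a n m h1 h2 h3 => by
      have e := H784.pg_step' hs0 hβ hτ (h.sΘ k (a + 1) n m) (h.pS k (a + 1) n m)
        (h.sM k a n m) (psd_isSymm (h.pE k a n m)) (h.bS k (a + 1) n m) (h.tΘ k (a + 1) n m)
        (h.pG k a (2 * n) m) (h.pG k a (2 * n + 1) m)
        (by rw [← h.S0 k a n m h1 h2 h3]; exact h.bS k a (2 * n) m)
        (by rw [← h.S1 k a n m h1 h2 h3]; exact h.bS k a (2 * n + 1) m)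
        (by rw [← h.S0 k a n m h1 h2 h3, ← h.Θ0 k a n m h1 h2 h3]; exact h.tΘ k a (2 * n) m)
        (by rw [← h.S1 k a n m h1 h2 h3, ← h.Θ1 k a n m h1 h2 h3]; exact h.tΘ k a (2 * n + 1) m)
      rw [← h.par k a n m h1 h2 h3, ← h.S0 k a n m h1 h2 h3, ← h.Θ0 k a n m h1 h2 h3,
        ← h.S1 k a n m h1 h2 h3, ← h.Θ1 k a n m h1 h2 h3] at e
      exact e)
    (hEW k₀ k₀ (H 0) (by simpa using h.hH 0 (by have := h.hkN; omega)))
    (fun r hr => hEW (N - r) N (H r) (h.hHT r hr))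
    (fun r => by
      have e1 := h.SD_diag r
      have e2 := h.hZQ r
      calc ∑ k ∈ Ico k₀ (N - r), bsum N R S k (k + r + 1) (fun n m => 8 * τ ^ 2 * dls s
              (Sr k (k + r + 1) n m * G k (k + r) (2 * n) m * Sr k (k + r + 1) n m)
              (Sr k (k + r + 1) n m * G k (k + r) (2 * n + 1) m * Sr k (k + r + 1) n m)
            + 12 * (τ * s) * (2 + τ * β⁻¹) * eQ (E k (k + r) n m) (M k (k + r) n m)
              (G k (k + r) (2 * n) m) (G k (k + r) (2 * n + 1) m))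
          ≤ ∑ k ∈ Ico k₀ (N - r), bsum N R S k (k + r + 1) (fun n m => 8 * τ ^ 2 * (s * SD μ J
              (Sr k (k + r + 1) n m * G k (k + r) (2 * n) m * Sr k (k + r + 1) n m)
              (Sr k (k + r + 1) n m * G k (k + r) (2 * n + 1) m * Sr k (k + r + 1) n m))
            + 12 * (τ * s) * (2 + τ * β⁻¹) * eQ (E k (k + r) n m) (M k (k + r) n m)
              (G k (k + r) (2 * n) m) (G k (k + r) (2 * n + 1) m)) :=
            sum_le_sum fun k _ => bsum_mono fun n m => add_le_add (mul_le_mul_of_nonneg_left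
              (dls_le (psd_conj_symm (h.pG _ _ _ _) (psd_isSymm (h.pS _ _ _ _)))
                (psd_conj_symm (h.pG _ _ _ _) (psd_isSymm (h.pS _ _ _ _))) h.hμ hj hs)
              (by positivity)) le_rfl
        _ = 8 * τ ^ 2 * (s * ∑ k ∈ Ico k₀ (N - r), bsum N R S k (k + r + 1) (fun n m => SD μ J
              (Sr k (k + r + 1) n m * G k (k + r) (2 * n) m * Sr k (k + r + 1) n m)
              (Sr k (k + r + 1) n m * G k (k + r) (2 * n + 1) m * Sr k (k + r + 1) n m)))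
            + 12 * (τ * s) * (2 + τ * β⁻¹) * ∑ k ∈ Ico k₀ (N - r), bsum N R S k (k + r + 1)
              (fun n m => eQ (E k (k + r) n m) (M k (k + r) n m)
                (G k (k + r) (2 * n) m) (G k (k + r) (2 * n + 1) m)) := by
            simp only [bsum_add, bsum_smul, sum_add_distrib, ← mul_sum]
        _ ≤ _ := add_le_add (mul_le_mul_of_nonneg_left (mul_le_mul_of_nonneg_left e1 hs0.le)
              (by positivity)) (mul_le_mul_of_nonneg_left e2 hc))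
  have f1 : S34 N (fun r => τ ^ 2 * s * H r) ≤ τ ^ 2 * s * S34 N (OwL J H ZM ZE Qm) := by
    rw [S34_smul]
    exact mul_le_mul_of_nonneg_left (S34_mono h.Ow_ge) (by positivity)
  have f2 : S34 N (fun r => 8 * τ ^ 2 * (s * (4 * OwL J H ZM ZE Qm r))
      + 12 * (τ * s) * (2 + τ * β⁻¹) * ZQ r) = 32 * (τ ^ 2 * s * S34 N (OwL J H ZM ZE Qm))
      + 12 * (τ * s) * (2 + τ * β⁻¹) * S34 N ZQ := by
    unfold S34
    simp only [mul_sum]
    rw [← sum_add_distrib]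
    exact sum_congr rfl fun r _ => by ring
  rw [f2] at key
  refine key.trans ?_
  linarith

end fam

end

end Vale.Agent.P141.H839.TVpgL
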